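import Vale.Agent.P275SF.Stmt
import Vale.Agent.P275S.KInj

/-! P275, from the working form of the statement to the final form: derived categories, sheaves -/

open CategoryTheory CategoryTheory.Pretriangulated Limits TopologicalSpace

noncomputable section

namespace Vale.Agent.P275SF

section abelian

variable {A B : Type 1} [Category.{0} A] [Abelian A] [Category.{0} B] [Abelian B]

theorem img_f (F : A ⥤ B) [F.Additive] {P : A} {P' : B} (η : P' ⟶ F.obj P) {m : ℤ}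
    {K : CochainComplex A ℤ} (c : (HomologicalComplex.single A (.up ℤ) m).obj P ⟶ K) :
    (HomologicalComplex.singleObjXSelf (.up ℤ) m P').inv ≫ (img F η c).f m =
      η ≫ F.map ((HomologicalComplex.singleObjXSelf (.up ℤ) m P).inv ≫ c.f m) := by
  change _ ≫ ((HomologicalComplex.single B (.up ℤ) m).map η).f m ≫
    ((HomologicalComplex.singleMapHomologicalComplex F _ m).inv.app P).f m ≫ F.map (c.f m) = _
  rw [HomologicalComplex.single_map_f_self,
    HomologicalComplex.singleMapHomologicalComplex_inv_app_self, Functor.map_comp,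
    Category.assoc, Category.assoc, Iso.inv_hom_id_assoc]
  exact congrArg (η ≫ ·) ((congrArg (_ ≫ ·) (Category.assoc ..)).trans
    (Iso.inv_hom_id_assoc _ _))

theorem mk_f {P P' : A} (a : P ⟶ P') {m : ℤ} {K : CochainComplex A ℤ} (φ : P' ⟶ K.X m) (h) :
    (HomologicalComplex.singleObjXSelf (.up ℤ) m P).inv ≫
      ((HomologicalComplex.single A (.up ℤ) m).map a ≫
        HomologicalComplex.mkHomFromSingle φ h).f m = a ≫ φ := by
  simp [HomologicalComplex.single_map_f_self, HomologicalComplex.mkHomFromSingle_f]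

variable [HasDerivedCategory.{1} A]

theorem IsTrunc.iso {S : ℤ → A → Prop} {c : ℤ} {L K K' : DerivedCategory A} {u : L ⟶ K}
    (h : IsTrunc S c u) (e : K ⟶ K') [IsIso e] : IsTrunc S c (u ≫ e) := by
  obtain ⟨M, v, w, hT, h1, h2⟩ := h
  refine ⟨M, inv e ≫ v, w, isomorphic_distinguished _ hT _ (Triangle.isoMk _ _ (Iso.refl L)
    (asIso e).symm (Iso.refl M) ?_ ?_ ?_), h1, h2⟩
  · exact (by simp : (u ≫ e) ≫ inv e = 𝟙 L ≫ u)
  · exact Category.comp_id _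
  · exact (by simp : w ≫ (shiftFunctor _ (1 : ℤ)).map (𝟙 L) = 𝟙 M ≫ w)

theorem thru_iff {P P' K K' : CochainComplex A ℤ} {L : DerivedCategory A} (u : L ⟶ dc K)
    (c : P ⟶ K) (c' : P' ⟶ K') (a : P ≅ P') (φ : K ⟶ K') [IsIso (DerivedCategory.Q.map φ)]
    (h : c ≫ φ = a.hom ≫ c') : Thru u c ↔ Thru (K := K') (u ≫ DerivedCategory.Q.map φ) c' := by
  have h1 := congrArg DerivedCategory.Q.map h
  rw [Functor.map_comp, Functor.map_comp] at h1
  constructor
  · rintro ⟨ψ, hψ⟩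
    refine ⟨DerivedCategory.Q.map a.inv ≫ ψ, ?_⟩
    have h2 : ψ ≫ u ≫ DerivedCategory.Q.map φ = _ :=
      (Category.assoc ..).symm.trans ((congrArg (· ≫ DerivedCategory.Q.map φ) hψ).trans h1)
    refine (Category.assoc ..).trans ((congrArg (_ ≫ ·) h2).trans ?_)
    exact (DerivedCategory.Q.mapIso a).inv_hom_id_assoc _
  · rintro ⟨ψ, hψ⟩
    refine ⟨DerivedCategory.Q.map a.hom ≫ ψ, ?_⟩
    refine (cancel_mono (DerivedCategory.Q.map φ)).1 (Eq.trans ?_ h1.symm)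
    exact (Category.assoc ..).trans ((Category.assoc ..).trans (congrArg (_ ≫ ·) hψ))

theorem thru_congr {P K : CochainComplex A ℤ} {L L' : DerivedCategory A} {u : L ⟶ dc K}
    {u' : L' ⟶ dc K} (c : P ⟶ K) (e : L ⟶ L') [IsIso e] (h : u = e ≫ u') :
    Thru u c ↔ Thru u' c := by
  subst h
  exact ⟨fun ⟨ψ, hψ⟩ => ⟨ψ ≫ e, by rw [Category.assoc, hψ]⟩,
    fun ⟨ψ, hψ⟩ => ⟨ψ ≫ inv e, by simpa using hψ⟩⟩

theorem thruLE_iff (n : ℤ) {P P' K K' : CochainComplex A ℤ} (c : P ⟶ K) (c' : P' ⟶ K')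
    (a : P ≅ P') (φ : K ⟶ K') [hφ : IsIso (DerivedCategory.Q.map φ)] (h : c ≫ φ = a.hom ≫ c') :
    ThruLE n c ↔ ThruLE n c' := by
  let f : dc K ⟶ dc K' := DerivedCategory.Q.map φ
  have : IsIso f := hφ
  exact (thru_iff _ c c' a φ h).trans (thru_congr c'
    ((DerivedCategory.TStructure.t.truncLE n).map f)
    ((DerivedCategory.TStructure.t.truncLEι n).naturality f).symm)

end abelian

variable {X Y : TopCat.{0}}

theorem adj_comp {G G' : Sh X} (ψ : QX X ⟶ G) (χ : G ⟶ G') :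
    adj G' (ψ ≫ χ) = adj G ψ ≫ χ.1.app (Opposite.op ⊤) :=
  (constantSheafAdj (Opens.grothendieckTopology X) (ModuleCat.{0} ℚ)
    isTerminalTop).homEquiv_naturality_right ψ χ

/-- the section `1` of the constant sheaf -/
def one (X : TopCat.{0}) : P275S.sec (k := ℚ) (QX X) ⊤ := (adj (QX X) (𝟙 _)).hom (1 : ℚ)

theorem adj_one {G : Sh X} (ψ : QX X ⟶ G) :
    (adj G ψ).hom (1 : ℚ) = P275S.app (k := ℚ) ψ ⊤ (one X) := by
  have := adj_comp (𝟙 _) ψ
  rw [Category.id_comp] at this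
  rw [this]
  rfl

theorem qx_ext {G : Sh X} {ψ ψ' : QX X ⟶ G}
    (h : P275S.app (k := ℚ) ψ ⊤ (one X) = P275S.app (k := ℚ) ψ' ⊤ (one X)) : ψ = ψ' := by
  refine (adj G).injective (ModuleCat.hom_ext (LinearMap.ext_ring ?_))
  exact (adj_one ψ).trans (h.trans (adj_one ψ').symm)

theorem exists_qx {G : Sh X} (s : P275S.sec (k := ℚ) G ⊤) :
    ∃ ψ : QX X ⟶ G, P275S.app (k := ℚ) ψ ⊤ (one X) = s :=
  ⟨(adj G).symm (ModuleCat.ofHom (LinearMap.toSpanSingleton ℚ _ s)), (adj_one _).symm.trans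
    ((congrArg (fun g => ModuleCat.Hom.hom g (1 : ℚ)) ((adj G).apply_symm_apply _)).trans
      (one_smul ℚ s))⟩

theorem unit_one (f : X ⟶ Y) : P275S.app (k := ℚ) (unit f) ⊤ (one Y) = one X := by
  rw [← adj_one]
  exact congrArg (fun g => ModuleCat.Hom.hom g (1 : ℚ)) ((adj _).right_inv _)

theorem exists_al (X : TopCat.{0}) : ∃ a : QX X ≅ P275S.cst ℚ X,
    P275S.app (k := ℚ) a.hom ⊤ (one X) = P275S.cstOne ℚ ⊤ := by
  obtain ⟨ψ, hψ⟩ := exists_qx (G := P275S.cst ℚ X) (P275S.cstOne ℚ ⊤)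
  refine ⟨⟨ψ, P275S.secHom (k := ℚ) (F := QX X) (one X), qx_ext ?_, P275S.cst_hom_ext ?_⟩, hψ⟩
  · exact (congrArg _ hψ).trans (P275S.secHom_one _)
  · exact (congrArg (P275S.app (k := ℚ) ψ ⊤) (P275S.secHom_one _)).trans hψ

theorem exists_he (X : TopCat.{0}) :
    Nonempty (HomotopyEquiv (V := P275S.Sh ℚ X) (IX X) (P275S.I ℚ X)) := by
  obtain ⟨a, -⟩ := exists_al X
  let J : P275S.Cx ℚ X := IX X
  have hJ : P275S.InjC J :=
    ⟨⟨0, inferInstanceAs ((injectiveResolution (QX X)).cochainComplex.IsStrictlyGE 0)⟩,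
      fun n => inferInstanceAs (Injective ((injectiveResolution (QX X)).cochainComplex.X n))⟩
  let Q' : P275S.Sh ℚ X := QX X
  let a' : Q' ≅ P275S.cst ℚ X := a
  let i0 : (CochainComplex.singleFunctor (P275S.Sh ℚ X) 0).obj Q' ⟶ J :=
    (injectiveResolution (QX X)).ι'
  have : QuasiIso i0 := inferInstanceAs (QuasiIso (injectiveResolution (QX X)).ι')
  let i : P275S.cstAt ℚ X 0 ⟶ J := (CochainComplex.singleFunctor (P275S.Sh ℚ X) 0).map a'.inv ≫ i0
  have : QuasiIso i := inferInstance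
  obtain ⟨φ, h1⟩ := P275S.KG.exists_lift_hom (k := ℚ) i (P275S.injC_I ℚ X) (P275S.ιI ℚ X)
  obtain ⟨ψ, h2⟩ := P275S.KG.exists_lift_hom (k := ℚ) (P275S.ιI ℚ X) hJ i
  obtain ⟨k1⟩ := (P275S.KG.hom_eq_iff ℚ (φ ≫ ψ) (𝟙 _)).1 (P275S.KG.cancel_qis i hJ (by
    rw [P275S.KG.hom_comp ℚ φ, ← Category.assoc, h1, h2, P275S.KG.hom_id, Category.comp_id]))
  obtain ⟨k2⟩ := (P275S.KG.hom_eq_iff ℚ (ψ ≫ φ) (𝟙 _)).1
    (P275S.KG.cancel_qis (P275S.ιI ℚ X) (P275S.injC_I ℚ X) (by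
      rw [P275S.KG.hom_comp, ← Category.assoc, h2, h1, P275S.KG.hom_id, Category.comp_id]))
  exact ⟨⟨φ, ψ, k1, k2⟩⟩

/-- a chain map between the two injective resolutions -/
def ph (X : TopCat.{0}) : IX X ⟶ (P275S.I ℚ X : CochainComplex (Sh X) ℤ) :=
  (exists_he X).some.hom

/-- its direct image -/
def phf (f : X ⟶ Y) : RQ f ⟶ ((P275S.pushC ℚ f).obj (P275S.I ℚ X) : CochainComplex (Sh Y) ℤ) :=
  (mapC (push f)).map (ph X)

theorem isIso_phf (f : X ⟶ Y) : IsIso (DerivedCategory.Q.map (phf f)) :=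
  (DerivedCategory.isIso_Q_map_iff_quasiIso _ _).2
    ((P275S.push ℚ f).mapHomotopyEquiv (exists_he X).some).quasiIso_hom

/-- the value at `1` of a chain map from the constant sheaf -/
def val {m : ℤ} {K : CochainComplex (Sh X) ℤ} (c : sg (QX X) m ⟶ K) :
    P275S.sec (k := ℚ) (K.X m) ⊤ :=
  P275S.app (k := ℚ) ((HomologicalComplex.singleObjXSelf (.up ℤ) m (QX X)).inv ≫ c.f m) ⊤ (one X)

theorem val_ext {m : ℤ} {K : CochainComplex (Sh X) ℤ} {c c' : sg (QX X) m ⟶ K}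
    (h : val c = val c') : c = c' :=
  HomologicalComplex.from_single_hom_ext ((cancel_epi _).1 (qx_ext h))

theorem val_comp {m : ℤ} {K K' : CochainComplex (Sh X) ℤ} (c : sg (QX X) m ⟶ K) (φ : K ⟶ K') :
    val (c ≫ φ) = P275S.app (k := ℚ) (φ.f m) ⊤ (val c) := rfl

theorem val_d {m : ℤ} {K : CochainComplex (Sh X) ℤ} (c : sg (QX X) m ⟶ K) :
    P275S.app (k := ℚ) (K.d m (m + 1)) ⊤ (val c) = 0 := by
  have h : c.f m ≫ K.d m (m + 1) = 0 := (c.comm m (m + 1)).trans zero_comp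
  exact congrArg (fun g => P275S.app (k := ℚ)
    ((HomologicalComplex.singleObjXSelf (.up ℤ) m (QX X)).inv ≫ g) ⊤ (one X)) h

theorem val_cl (f : X ⟶ Y) {m : ℤ} (c : sg (QX X) m ⟶ IX X) : val (cl f c) = val c :=
  (congrArg (fun g => P275S.app (k := ℚ) g ⊤ (one Y)) (img_f (push f) (unit f) c)).trans
    (congrArg (P275S.app (k := ℚ) ((push f).map
      ((HomologicalComplex.singleObjXSelf (.up ℤ) m (QX X)).inv ≫ c.f m)) ⊤) (unit_one f))

theorem val_clsC {m : ℤ} {K : P275S.Cx ℚ X} (a : QX X ⟶ P275S.cst ℚ X)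
    (ha : P275S.app (k := ℚ) a ⊤ (one X) = P275S.cstOne ℚ ⊤) (s : P275S.sec (K.X m) ⊤)
    (hs : P275S.app (K.d m (m + 1)) ⊤ s = 0) :
    val (K := K) ((CochainComplex.singleFunctor (Sh X) m).map a ≫ P275S.clsC s hs) = s :=
  (congrArg (fun g => P275S.app (k := ℚ) g ⊤ (one X)) (mk_f (A := P275S.Sh ℚ X) a _ _)).trans
    ((congrArg (P275S.app (P275S.secHom s) ⊤) ha).trans (P275S.secHom_one s))

theorem exists_sq (f : X ⟶ Y) {m : ℤ} (c : sg (QX X) m ⟶ IX X) :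
    ∃ a : sg (QX Y) m ≅ sg (A := Sh Y) (P275S.cst ℚ Y) m, cl f c ≫ phf f =
      a.hom ≫ P275S.clsC (F := (P275S.pushC ℚ f).obj (P275S.I ℚ X))
        (val (X := X) (K := P275S.I ℚ X) (c ≫ ph X) : P275S.sec ((P275S.I ℚ X).X m) ⊤)
        (val_d (X := X) (K := P275S.I ℚ X) (c ≫ ph X)) := by
  obtain ⟨a, ha⟩ := exists_al Y
  refine ⟨(CochainComplex.singleFunctor (Sh Y) m).mapIso a, val_ext ?_⟩
  exact ((val_comp _ _).trans (congrArg _ (val_cl f c))).trans (val_clsC a.hom ha _ _).symm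

end Vale.Agent.P275SF
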