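import Vale.Agent.P275SF.BrA
import Vale.Agent.P275ST.Stmt
import Vale.Agent.P275ZA.Zar
import Vale.Agent.P284Z.F0.Levi

/-! P275, from the working form of the statement to the final form -/

open scoped Manifold ContDiff Topology ComplexOrder
open Filter CategoryTheory CategoryTheory.Pretriangulated Limits TopologicalSpace
open Vale.Agent.P272.K (Cm cHess)
open Vale.Agent.P285.H281.FD (Bd IsLB IsMet)
open Vale.Agent.P275ST (Pc Marking deg Base)

noncomputable section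

namespace Vale.Agent.P275SF

theorem psh_iff {n : ℕ} {ψ : Cm n → ℝ} {z : Cm n} (h : ContDiffAt ℝ ∞ ψ z) :
    Psh ψ z ↔ (cHess ψ z).PosDef := by
  have h2 : ContDiffAt ℝ 2 ψ z := h.of_le (WithTop.coe_le_coe.2 (le_top : (2 : ℕ∞) ≤ ⊤))
  have key : ∀ v : Cm n, fderiv ℝ (fun w => fderiv ℝ ψ w v) z v = fderiv ℝ (fderiv ℝ ψ) z v v :=
    fun v => by
      rw [fderiv_clm_apply (P284Z.diff_fderiv h2) (differentiableAt_const v)]
      simp
  have hq := P284Z.cHess_quad h2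
  constructor
  · rintro ⟨-, hp⟩
    have hp' : ∀ v, v ≠ 0 → 0 < P284Z.levi ψ z v := fun v hv => by
      have := hp v hv
      rwa [key, key] at this
    refine .of_dotProduct_mulVec_pos ((P284Z.cHess_psd_iff h2).2 fun w => ?_).isHermitian
      fun x hx => ?_
    · by_cases hw : w = 0
      · simp [hw, P284Z.levi]
      · exact (hp' w hw).le
    · rw [hq, Complex.zero_lt_real]
      linarith [hp' (star x) (by simpa using hx)]
  · refine fun hp => ⟨h, fun v hv => ?_⟩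
    have := hp.dotProduct_mulVec_pos (x := star v) (by simpa using hv)
    rw [hq, star_star, Complex.zero_lt_real, P284Z.levi] at this
    rw [key, key]
    linarith

theorem prj_iff {n : ℕ} (V : P281Z.Mf n) : Prj (Cm n) V.X ↔ V.Prj := by
  constructor
  · rintro ⟨ι, U, g, ψ, h1, h2, h3, h4⟩
    exact ⟨⟨ι, U, g⟩, ⟨h1, h2, fun i j e x he hi hj => ((h3 i j x hi hj).1 e he).contDiffAt,
      fun i j x hi hj => (h3 i j x hi hj).2.1,
      fun i j k x hi hj hk => (h3 i j x hi hj).2.2.2 k hk⟩, ψ,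
      ⟨fun i e x he hi => (h4 i e x he hi).1, fun i j x hi hj => (h3 i j x hi hj).2.2.1⟩,
      fun i e x he hi => (psh_iff (h4 i e x he hi).1).1 (h4 i e x he hi)⟩
  · rintro ⟨L, hL, ψ, hm, hp⟩
    exact ⟨L.ι, L.U, L.g, ψ, hL.isOpen, hL.cover, fun i j y hi hj =>
      ⟨fun e he => (hL.holo i j e y he hi hj).analyticAt, hL.ne_zero i j y hi hj,
        hm.change i j y hi hj, fun k hk => hL.cocycle i j k y hi hj hk⟩,
      fun i e y he hi => (psh_iff (hm.smooth i e y he hi)).2 (hp i e y he hi)⟩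

variable {g n : ℕ} {d : ℤ}

/-- the underlying manifold -/
def CptB.mf' (K : CptB g n d) : P281Z.Mf (2 * dimR g n) :=
  @P281Z.Mf.mk _ K.Y K.top K.t2 K.cpt K.ch K.mf

/-- the compactification in the working form -/
def CptB.st (K : CptB g n d) : P275ST.Cpt g n d where
  Y := K.mf'
  prj := (prj_iff K.mf').1 K.prj
  r := K.r
  G := K.G
  snc := K.snc
  j := fun x => K.j.hom x
  emb := K.emb
  rng := K.rng
  dense := by
    have h : @Dense K.Y K.top (Set.range K.j) := K.dense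
    exact (congrArg (@Dense K.Y K.top) K.rng).mp h
  mer := K.mer
  crd := K.crd

/-- the compactification in the final form -/
def ofSt (K : P275ST.Cpt g n d) : CptB g n d :=
  { Y := K.Y.X
    ch := K.Y.ch
    mf := K.Y.mf
    prj := (prj_iff K.Y).2 K.prj
    r := K.r
    G := K.G
    snc := K.snc
    j := ⟨K.j, K.emb.continuous⟩
    emb := K.emb
    rng := K.rng
    dense := by
      have h := K.dense
      rw [← K.rng] at h
      exact h
    mer := K.mer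
    crd := K.crd }

section perv

variable {V : Type} [AddCommGroup V] [Module ℂ V]

theorem zarLE_iff (e : ℤ) (Z : Set V) : ZarLE e Z ↔ P275ST.ZarLE Z e :=
  and_congr_left' ⟨fun h => P275ZA.isZar_iff.2 fun v hv => h v fun f hf hz =>
      hv ⟨f, hf⟩ (P275ZA.ru_eq_zero.2 hz),
    fun h v hv => P275ZA.isZar_iff.1 h v fun f hf => hv f.1 f.2 (P275ZA.ru_eq_zero.1 hf)⟩

variable [TopologicalSpace V]

theorem supp_iff (e : ℤ) (G : Sh (TopCat.of V)) :
    Supp (X := TopCat.of V) (ZarLE (V := V)) e G ↔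
      ∃ Z : Set V, P275ST.ZarLE Z e ∧ P275ST.SuppIn (Y := TopCat.of V) G Z :=
  exists_congr fun Z => and_congr_left' (zarLE_iff e Z)

theorem trunc_iff (c : ℤ) {L K : P275S.Der ℚ (TopCat.of V)} (u : L ⟶ K) :
    IsTrunc (A := Sh (TopCat.of V)) (Supp (X := TopCat.of V) (ZarLE (V := V))) c u ↔
      P275ST.IsPervTrunc c u := by
  refine exists₃_congr fun M v w => and_congr_right' (and_congr (and_congr_right'
    (forall_congr' fun i => supp_iff _ _)) ⟨fun h i Z hZ G hG => ?_, fun h i G hG => ?_⟩)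
  · exact h i G ((supp_iff _ _).2 ⟨Z, hZ, hG⟩)
  · obtain ⟨Z, hZ, hG⟩ := (supp_iff _ _).1 hG
    exact h i Z hZ G hG

end perv

variable {X Y : TopCat.{0}}

/-- the cocycle of a chain map -/
def cocy {m : ℤ} (c : sg (QX X) m ⟶ IX X) : P275ST.Cocy X m :=
  ⟨val (K := P275S.I ℚ X) (c ≫ ph X), val_d (K := P275S.I ℚ X) (c ≫ ph X)⟩

theorem inW_iff (j : X ⟶ Y) (w : ℤ) {m : ℤ} (c : sg (QX X) m ⟶ IX X) :
    InW j w c ↔ P275ST.InW j w (cocy c) := by
  obtain ⟨a, ha⟩ := exists_sq j c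
  exact thruLE_iff (hφ := isIso_phf j) (w - m) _ _ a _ ha

theorem inIm_iff (f : X ⟶ Y) {L : DerivedCategory (Sh Y)} (u : L ⟶ dc (RQ f)) {m : ℤ}
    (c : sg (QX X) m ⟶ IX X) : Thru u (cl f c) ↔
      P275ST.InIm f (A := L) (u ≫ DerivedCategory.Q.map (phf f)) (cocy c) := by
  obtain ⟨a, ha⟩ := exists_sq f c
  have := isIso_phf f
  exact thru_iff u _ _ a _ ha

theorem nah_iff {C : Type} [TopologicalSpace C] [ChartedSpace ℂ C] {D : C →₀ ℤ} {p : C}
    {x₀ : Pc p} (M : Marking g p x₀) (ℓ : C → ℂ) (E : P275ST.Higgs C n D) (ρ : Rep g n (deg D)) :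
    NAH M ℓ E ρ ↔ P275ST.NAH M ℓ E ρ :=
  ⟨fun ⟨H, f, a, b, F, c⟩ => ⟨H, f, F, a, b, c⟩, fun ⟨H, f, F, a, b, c⟩ => ⟨H, f, a, b, F, c⟩⟩

theorem bridge (H : P275ST.PW) : PW := by
  intro C _ _ _ _ _ _ p x₀
  obtain ⟨h0, h1⟩ := H C p x₀
  refine ⟨h0, fun g n D M hg hn hc => ?_⟩
  obtain ⟨a1, ⟨K0⟩, a3⟩ := h1 g n D M hg hn hc
  refine ⟨a1, ⟨ofSt K0⟩, fun ℓ hl => ?_⟩
  obtain ⟨b1, b2, b3, h, b4, b5⟩ := a3 ℓ hl
  let f : XT g n (deg D) ⟶ BT C n := TopCat.ofHom h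
  have hi := isIso_phf f
  let e : dc (RQ f) ⟶ dc ((P275S.pushC ℚ f).obj (P275S.I ℚ _)) := DerivedCategory.Q.map (phf f)
  have : IsIso e := hi
  refine ⟨⟨fun E => (b1 E).imp fun ρ => (nah_iff M ℓ E ρ).2,
    fun ρ => (b2 ρ).imp fun E => (nah_iff M ℓ E ρ).2,
    fun E E' ρ ρ' t t' => b3 E E' ρ ρ' ((nah_iff M ℓ E ρ).1 t) ((nah_iff M ℓ E' ρ').1 t')⟩, f,
    fun E ρ t => b4 E ρ ((nah_iff M ℓ E ρ).1 t), fun k => ⟨?_, fun L u hu K m c => ?_⟩⟩
  · obtain ⟨L, u, hu⟩ := (b5 k).1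
    let L' : DerivedCategory (Sh (BT C n)) := L
    let u' : L' ⟶ dc ((P275S.pushC ℚ f).obj (P275S.I ℚ _)) := u
    have hu' : IsTrunc (Supp (ZB C n)) (k + dimR g n) u' := (trunc_iff _ u).2 hu
    exact ⟨L', _, hu'.iso (inv e)⟩
  · have := (b5 k).2 L _ ((trunc_iff _ _).1 (hu.iso e)) K.st m (cocy c)
    exact ⟨(inIm_iff f u c).trans (this.1.trans (inW_iff K.j _ c).symm),
      (inW_iff K.j _ c).trans (this.2.trans (inW_iff K.j _ c).symm)⟩

end Vale.Agent.P275SF
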