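import Vale.Agent.P275ST.Geo

/-!
P275, statement: compactifications, cohomology, the perverse filtration, the weight filtration,
`P = W`. The geometric half (Higgs bundles, Hitchin map, character variety, nonabelian Hodge
correspondence) is in `P275ST/Geo`.
-/

open scoped Manifold ContDiff Topology commutatorElement
open Filter CategoryTheory CategoryTheory.Pretriangulated Limits TopologicalSpace
open Vale.Agent.P275ST hiding Rep XB IsReg NAH ZarLE

noncomputable section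

namespace Vale.Agent.P275SF

/-! Complex manifolds with charts in `E` -/

section mf

variable (E : Type) [NormedAddCommGroup E] [NormedSpace ℂ E] [NormedSpace ℝ E]
  {Y : Type} [TopologicalSpace Y] [ChartedSpace E Y]

variable {E} in
/-- `e` is a chart around `y` -/
def At (e : OpenPartialHomeomorph Y E) (y : Y) : Prop := e ∈ atlas E Y ∧ y ∈ e.source

/-- `a` is holomorphic at `y` -/
def Hol (a : Y → ℂ) (y : Y) : Prop :=
  ∀ e : OpenPartialHomeomorph Y E, At e y → AnalyticAt ℂ (fun z => a (e.symm z)) (e y)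

/-- the functions `h a` are holomorphic at `y`, with independent differentials -/
def Ind {α : Type} (h : α → Y → ℂ) (y : Y) : Prop :=
  (∀ a, Hol E (h a) y) ∧ ∀ e : OpenPartialHomeomorph Y E, At e y →
    LinearIndependent ℂ fun a => fderiv ℂ (fun z => h a (e.symm z)) (e y)

/-- `ζ` is a local equation at `y` of the smooth hypersurface `G` -/
def LEq (G : Set Y) (y : Y) (ζ : Y → ℂ) : Prop :=
  (∀ᶠ y' in 𝓝 y, (ζ y' = 0 ↔ y' ∈ G)) ∧ ∀ e : OpenPartialHomeomorph Y E, At e y →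
    AnalyticAt ℂ (fun z => ζ (e.symm z)) (e y) ∧
      (ζ y = 0 → fderiv ℂ (fun z => ζ (e.symm z)) (e y) ≠ 0)

/-- simple normal crossings -/
def Snc {κ : Type} (G : κ → Set Y) : Prop :=
  ∀ y, ∃ ζ : κ → Y → ℂ, (∀ l, LEq E (G l) y (ζ l)) ∧ Ind E (fun l : {l // y ∈ G l} => ζ l) y

variable {E} in
/-- `ψ` is smooth and strictly plurisubharmonic at `z`: its Levi form is positive definite -/
def Psh (ψ : E → ℝ) (z : E) : Prop := ContDiffAt ℝ ∞ ψ z ∧ ∀ v : E, v ≠ 0 →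
  0 < fderiv ℝ (fun w => fderiv ℝ ψ w v) z v +
    fderiv ℝ (fun w => fderiv ℝ ψ w (Complex.I • v)) z (Complex.I • v)

variable (Y) in
/-- `Y` has a positive line bundle (cocycle `g`, metric with weights `ψ`); for compact `Y` this
says that `Y` is projective -/
def Prj : Prop := ∃ (ι : Type) (U : ι → Set Y) (g : ι → ι → Y → ℂ) (ψ : ι → Y → ℝ),
  (∀ i, IsOpen (U i)) ∧ (∀ y, ∃ i, y ∈ U i) ∧
  (∀ i j y, y ∈ U i → y ∈ U j → Hol E (g i j) y ∧ g i j y ≠ 0 ∧
    ψ i y = ψ j y + Real.log (‖g i j y‖ ^ 2) ∧ ∀ k, y ∈ U k → g i j y * g j k y = g i k y) ∧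
  ∀ i (e : OpenPartialHomeomorph Y E) y, At e y → y ∈ U i → Psh (fun z => ψ i (e.symm z)) (e y)

/-- `t`, given on `X = Y ∖ ⋃ G l`, is meromorphic on `Y` with poles along the `G l` only -/
def Mer {X : Type} (j : X → Y) {r : ℕ} (G : Fin r → Set Y) (t : X → ℂ) : Prop :=
  ∀ (y : Y) (ζ : Fin r → Y → ℂ), (∀ l, LEq E (G l) y (ζ l)) → ∃ (k : ℕ) (u : Y → ℂ), Hol E u y ∧
    ∀ᶠ y' in 𝓝 y, ∀ x, j x = y' → u y' = t x * (∏ l, ζ l y') ^ k

/-- A smooth projective compactification `Y` of the smooth affine variety `X` of dimension `N`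
(with the regular functions `Reg`) by a divisor `⋃ G l` with simple normal crossings: `j` is a
homeomorphism onto the complement, the regular functions are meromorphic on `Y` with poles along
the divisor only, and they give local coordinates on the complement. -/
structure Cpt (N : ℕ) (X : Type) [TopologicalSpace X] (Reg : (X → ℂ) → Prop) where
  Y : Type
  [top : TopologicalSpace Y]
  [t2 : T2Space Y]
  [cpt : CompactSpace Y]
  [ch : ChartedSpace E Y]
  [mf : IsManifold 𝓘(ℂ, E) ω Y]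
  prj : Prj E Y
  r : ℕ
  G : Fin r → Set Y
  snc : Snc E G
  j : C(X, Y)
  emb : Topology.IsOpenEmbedding j
  rng : Set.range j = {y | ∀ l, y ∉ G l}
  dense : DenseRange j
  mer : ∀ t, Reg t → Mer E j G t
  crd : ∀ x, ∃ (t : Fin N → X → ℂ) (u : Fin N → Y → ℂ),
    (∀ i, Reg (t i) ∧ ∀ x', u i (j x') = t i x') ∧ Ind E u (j x)

variable {E} {N : ℕ} {X : Type} [TopologicalSpace X] {Reg : (X → ℂ) → Prop}

/-- the compactification as a space -/
def Cpt.T (K : Cpt E N X Reg) : TopCat.{0} := @TopCat.of K.Y K.top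

/-- the open embedding as a morphism of spaces -/
def Cpt.hom (K : Cpt E N X Reg) : TopCat.of X ⟶ K.T := @TopCat.ofHom X K.Y _ K.top K.j

end mf

/-! Derived categories -/

section abelian

variable {A B : Type 1} [Category.{0} A] [Abelian A] [Category.{0} B] [Abelian B]

/-- the complex `G[-m]` -/
def sg (G : A) (m : ℤ) : CochainComplex A ℤ := (CochainComplex.singleFunctor A m).obj G

/-- an additive functor on complexes -/
def mapC (F : A ⥤ B) [F.Additive] : CochainComplex A ℤ ⥤ CochainComplex B ℤ :=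
  F.mapHomologicalComplex _

/-- the composite `P'[-m] → F(P)[-m] = F(P[-m]) → F(K)` -/
def img (F : A ⥤ B) [F.Additive] {P : A} {P' : B} (η : P' ⟶ F.obj P) {m : ℤ}
    {K : CochainComplex A ℤ} (c : sg P m ⟶ K) : sg P' m ⟶ (mapC F).obj K :=
  (CochainComplex.singleFunctor B m).map η ≫
    (HomologicalComplex.singleMapHomologicalComplex F _ m).inv.app P ≫ (mapC F).map c

variable [HasDerivedCategory.{1} A]

/-- a complex as an object of the derived category -/
def dc (K : CochainComplex A ℤ) : DerivedCategory A := DerivedCategory.Q.obj K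

/-- Support condition, `L ∈ {}^pD^{≤ c}`: `L` is bounded below and `dim supp H^i(L) ≤ c - i`;
here `S e G` says `dim supp G ≤ e`. -/
def PLE (S : ℤ → A → Prop) (c : ℤ) (L : DerivedCategory A) : Prop :=
  (∃ b, L.IsGE b) ∧ ∀ i : ℤ, S (c - i) ((DerivedCategory.homologyFunctor A i).obj L)

/-- Cosupport condition, `L ∈ {}^pD^{> c}`: `H^i(ι_Z^! L) = 0` for `i ≤ c - dim Z`, that is
`Hom(G[-i], L) = 0` if `dim supp G ≤ c - i`. -/
def PGT (S : ℤ → A → Prop) (c : ℤ) (L : DerivedCategory A) : Prop :=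
  ∀ (i : ℤ) (G : A), S (c - i) G → ∀ φ : dc (sg G i) ⟶ L, φ = 0

/-- `u : L → K` is the perverse truncation `{}^pτ_{≤ c} K → K` -/
def IsTrunc (S : ℤ → A → Prop) (c : ℤ) {L K : DerivedCategory A} (u : L ⟶ K) : Prop :=
  ∃ (M : DerivedCategory A) (v : K ⟶ M) (w : M ⟶ L⟦(1 : ℤ)⟧),
    Triangle.mk u v w ∈ distTriang (DerivedCategory A) ∧ PLE S c L ∧ PGT S c M

/-- the class of `c` in `Hom(P, K)` is in the image of `Hom(P, L)` -/
def Thru {P K : CochainComplex A ℤ} {L : DerivedCategory A} (u : L ⟶ dc K) (c : P ⟶ K) : Prop :=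
  ∃ φ : dc P ⟶ L, φ ≫ u = DerivedCategory.Q.map c

/-- the class of `c` in `Hom(P, K)` is in the image of `Hom(P, τ_{≤ a} K)` -/
def ThruLE (a : ℤ) {P K : CochainComplex A ℤ} (c : P ⟶ K) : Prop :=
  Thru ((DerivedCategory.TStructure.t.truncLEι a).app (dc K)) c

end abelian

/-! Sheaves of `ℚ`-vector spaces -/

/-- sheaves of `ℚ`-vector spaces on `X` -/
def Sh (X : TopCat.{0}) : Type 1 := TopCat.Sheaf (ModuleCat.{0} ℚ) X

variable {X Y : TopCat.{0}}

instance : Category.{0} (Sh X) := (inferInstance : Category (TopCat.Sheaf (ModuleCat.{0} ℚ) X))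

instance : Abelian (Sh X) := (inferInstance : Abelian (TopCat.Sheaf (ModuleCat.{0} ℚ) X))

instance : EnoughInjectives (Sh X) :=
  (inferInstance : EnoughInjectives (TopCat.Sheaf (ModuleCat.{0} ℚ) X))

instance : HasDerivedCategory.{1} (Sh X) := HasDerivedCategory.standard _

/-- the constant sheaf `ℚ_X` -/
def QX (X : TopCat.{0}) : Sh X :=
  (constantSheaf (Opens.grothendieckTopology X) (ModuleCat.{0} ℚ)).obj (ModuleCat.of ℚ ℚ)

/-- an injective resolution of `ℚ_X` -/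
def IX (X : TopCat.{0}) : CochainComplex (Sh X) ℤ := (injectiveResolution (QX X)).cochainComplex

/-- the chain maps `ℚ_X[-m] → K`, that is the cocycles of degree `m` of `Γ(X, K)` -/
abbrev Cc (m : ℤ) (K : CochainComplex (Sh X) ℤ) : Type := sg (QX X) m ⟶ K

/-- direct image -/
def push (f : X ⟶ Y) : Sh X ⥤ Sh Y := TopCat.Sheaf.pushforward (ModuleCat.{0} ℚ) f

instance (f : X ⟶ Y) : (push f).Additive where

/-- global sections -/
def Γ (G : Sh X) : ModuleCat.{0} ℚ := G.1.obj (Opposite.op ⊤)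

/-- the adjunction `Hom(ℚ_X, G) = Hom(ℚ, Γ(X, G))` -/
def adj (G : Sh X) : (QX X ⟶ G) ≃ (ModuleCat.of ℚ ℚ ⟶ Γ G) :=
  (constantSheafAdj (Opens.grothendieckTopology X) (ModuleCat.{0} ℚ) isTerminalTop).homEquiv _ G

/-- the morphism `ℚ_Y → f_* ℚ_X` which sends `1` to `1` -/
def unit (f : X ⟶ Y) : QX Y ⟶ (push f).obj (QX X) :=
  (adj ((push f).obj (QX X))).invFun ((adj (QX X)).toFun (𝟙 _))

/-- `Rf_* ℚ_X` -/
def RQ (f : X ⟶ Y) : CochainComplex (Sh Y) ℤ := (mapC (push f)).obj (IX X)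

/-- A chain map `c : ℚ_X[-m] → I` is a cocycle of degree `m` of `Γ(X, I)`; the classes form
`H^m(X, ℚ)`. This is the same cocycle as a chain map `ℚ_Y[-m] → Rf_* ℚ_X`, whose class is in
`H^m(Y, Rf_* ℚ_X) = H^m(X, ℚ)`. -/
def cl (f : X ⟶ Y) {m : ℤ} (c : Cc m (IX X)) : Cc m (RQ f) := img (push f) (unit f) c

/-- the support of `G` is contained in a set of the class `Z e` -/
def Supp (Z : ℤ → Set X → Prop) (e : ℤ) (G : Sh X) : Prop :=
  ∃ T, Z e T ∧ ∀ x ∉ T, IsZero (TopCat.Presheaf.stalk G.1 x)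

/-- The class of `c` is in Deligne's `W_w H^m(X, ℚ)`, the image of `H^m(Y, τ_{≤ w - m} Rj_* ℚ)`,
for a compactification `j : X → Y` by a divisor with simple normal crossings. -/
def InW (j : X ⟶ Y) (w : ℤ) {m : ℤ} (c : Cc m (IX X)) : Prop := ThruLE (w - m) (cl j c)

/-- For all `k` the truncation `{}^pτ_{≤ k} (Rh_* ℚ[R]) = ({}^pτ_{≤ k + R} Rh_* ℚ)[R]` exists and
`P_k H^m = W_{2k} H^m = W_{2k+1} H^m` for all `m`, with `W` computed by any of the `j i`. -/
def PEqW (Z : ℤ → Set Y → Prop) (R : ℕ) (h : X ⟶ Y) {ι : Type 1} {T : ι → TopCat.{0}}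
    (j : ∀ i, X ⟶ T i) : Prop :=
  ∀ k : ℕ, (∃ (L : DerivedCategory (Sh Y)) (u : L ⟶ dc (RQ h)), IsTrunc (Supp Z) (k + R) u) ∧
    ∀ (L : DerivedCategory (Sh Y)) (u : L ⟶ dc (RQ h)), IsTrunc (Supp Z) (k + R) u →
      ∀ (i : ι) (m : ℕ) (c : Cc m (IX X)), (Thru u (cl h c) ↔ InW (j i) (2 * k) c) ∧
        (InW (j i) (2 * k) c ↔ InW (j i) (2 * k + 1) c)

/-! The twisted character variety -/

/-- `SL_n(ℂ)` -/
abbrev SL (n : ℕ) : Type := Matrix.SpecialLinearGroup (Fin n) ℂ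

/-- `∏ [A_j, B_j]` for `A_j = ρ (j, false)`, `B_j = ρ (j, true)` -/
def cw {g n : ℕ} (ρ : Fin g × Bool → SL n) : SL n :=
  (List.ofFn fun j => ⁅ρ (j, false), ρ (j, true)⁆).prod

/-- the tuples `(A_j, B_j)` in `SL_n(ℂ)` with `∏ [A_j, B_j] = ζ` -/
def Rep (g n : ℕ) (d : ℤ) : Type :=
  {ρ : Fin g × Bool → SL n // (cw ρ).1 = zeta n d • (1 : Mx n n)}

instance (g n : ℕ) (d : ℤ) : TopologicalSpace (Rep g n d) := instTopologicalSpaceSubtype

/-- simultaneous conjugation -/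
def Rep.Conj {g n : ℕ} {d : ℤ} (ρ ρ' : Rep g n d) : Prop :=
  ∃ P : SL n, ∀ s, ρ'.1 s = P * ρ.1 s * P⁻¹

/-- The twisted character variety `X^B`. For `d` coprime to `n` all orbits are closed, so the
quotient is the space of orbits. -/
def XB (g n : ℕ) (d : ℤ) : Type := Quot (Rep.Conj (g := g) (n := n) (d := d))

instance (g n : ℕ) (d : ℤ) : TopologicalSpace (XB g n d) := instTopologicalSpaceQuot

/-- the point of `X^B` given by a tuple -/
def Rep.pt {g n : ℕ} {d : ℤ} (ρ : Rep g n d) : XB g n d := Quot.mk _ ρ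

/-- the matrices of a tuple -/
def Rep.mx {g n : ℕ} {d : ℤ} (ρ : Rep g n d) (s : Fin g × Bool) : Mx n n := (ρ.1 s).1

/-- the regular functions on `X^B`: the invariant polynomials in the matrix entries -/
def IsReg {g n : ℕ} {d : ℤ} (t : XB g n d → ℂ) : Prop :=
  ∃ P : MvPolynomial ((Fin g × Bool) × Fin n × Fin n) ℂ,
    ∀ ρ : Rep g n d, t ρ.pt = MvPolynomial.eval (fun q => ρ.mx q.1 q.2.1 q.2.2) P

/-! The statement -/

/-- `Z` is Zariski closed of dimension at most `e` (empty if `e < 0`) -/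
def ZarLE {V : Type} [AddCommGroup V] [Module ℂ V] (e : ℤ) (Z : Set V) : Prop :=
  (∀ v, (∀ f ∈ Pol Set.univ, (∀ z, ∀ _ : z ∈ Z, f ⟨z, trivial⟩ = 0) → f ⟨v, trivial⟩ = 0) →
    v ∈ Z) ∧ ringKrullDim (Pol Z) < (((e + 1).toNat : ℕ∞) : WithBot ℕ∞)

/-- `R = (n² - 1)(g - 1)` -/
def dimR (g n : ℕ) : ℕ := (n ^ 2 - 1) * (g - 1)

/-- the space `X^B` -/
def XT (g n : ℕ) (d : ℤ) : TopCat.{0} := TopCat.of (XB g n d)

/-- the good compactifications of `X^B` -/
def CptB (g n : ℕ) (d : ℤ) : Type 1 :=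
  Cpt (Fin (2 * dimR g n) → ℂ) (2 * dimR g n) (XB g n d) IsReg

/-- the compactification as a space -/
def CptB.T {g n : ℕ} {d : ℤ} (K : CptB g n d) : TopCat.{0} := Cpt.T K

/-- the open embedding of `X^B` -/
def CptB.j {g n : ℕ} {d : ℤ} (K : CptB g n d) : XT g n d ⟶ K.T := Cpt.hom K

variable (C : Type) [TopologicalSpace C] [ChartedSpace ℂ C]

/-- the Hitchin base as a space -/
def BT (n : ℕ) : TopCat.{0} := TopCat.of (Base C n)

/-- the Zariski closed subsets of the Hitchin base of dimension at most `e` -/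
def ZB (n : ℕ) (e : ℤ) (Z : Set (BT C n)) : Prop := ZarLE (V := Base C n) e Z

variable {C} {g n : ℕ} {D : C →₀ ℤ} {p : C} {x₀ : Pc p}

/-- There is a multivalued frame `F` on `ι : X → C`: a germ `F x γ` at `ι x` with the property `P`
for each class `γ` of paths from `x₀` to `x`, compatible with continuation along paths, whose
monodromy along the generator `s` of `π_1(X, x₀)` is `A s`. -/
def Frame {X S : Type} [TopologicalSpace X] {x₀ : X} (ι : X → C) (P : C → (C → Mx n n) → Prop)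
    (e : FreeGroup S ≃* FundamentalGroup X x₀) (A : S → Mx n n) : Prop :=
  ∃ F : ∀ x : X, Path.Homotopic.Quotient x₀ x → C → Mx n n, (∀ x γ, P (ι x) (F x γ)) ∧
    (∀ x γ, ∃ V ∈ 𝓝 x, ∀ (y : X) (δ : Path x y), (∀ t, δ t ∈ V) →
      F y (γ.trans (Path.Homotopic.Quotient.mk δ)) =ᶠ[𝓝[≠] (ι y)] F x γ) ∧
    ∀ s, ∀ᶠ y in 𝓝[≠] (ι x₀), F x₀ (e.toFun (FreeGroup.of s)).toPath y =
      F x₀ (Path.Homotopic.Quotient.refl x₀) y * A s

/-- **The nonabelian Hodge correspondence.** `E` has a metric `H` and a multivalued frame on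
`C ∖ {p}`, parallel up to scalars for `D_h + θ + θ^*` and with determinant `ℓ`, whose monodromy
along `a_j, b_j` is `A_j, B_j`. So `H` solves the equation of Hitchin and `ρ` is the monodromy of
the flat `SL_n` connection on `E ⊗ L^{-1/n}` over `C ∖ {p}`, where the root of `L` is fixed by
the trivialisation `ℓ`. -/
def NAH (M : Marking g p x₀) (ℓ : C → ℂ) (E : Higgs C n D) (ρ : Rep g n (deg D)) : Prop :=
  ∃ (H : C → Mx n n) (f : C → ℂ), E.IsMetric H ∧ E.DetIso D f ∧ Frame Subtype.val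
    (fun x F => E.IsFlat H F x ∧ ∀ᶠ y in 𝓝[≠] x, f y * (F y).det = ℓ y) M.e ρ.mx

/-- `NAH` is a bijection from the isomorphism classes of stable Higgs bundles to `X^B` -/
def IsBij (M : Marking g p x₀) (ℓ : C → ℂ) (n : ℕ) (D : C →₀ ℤ) : Prop :=
  (∀ E : Higgs C n D, ∃ ρ, NAH M ℓ E ρ) ∧ (∀ ρ, ∃ E : Higgs C n D, NAH M ℓ E ρ) ∧
    ∀ (E E' : Higgs C n D) ρ ρ', NAH M ℓ E ρ → NAH M ℓ E' ρ' → (E.Iso E' ↔ ρ.pt = ρ'.pt)

/-- `h` is the Hitchin map, transported to `X^B` -/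
def IsHit (M : Marking g p x₀) (ℓ : C → ℂ) (h : XT g n (deg D) ⟶ BT C n) : Prop :=
  ∀ (E : Higgs C n D) ρ, NAH M ℓ E ρ → E.Hit (h.hom.toFun ρ.pt)

/-- **`P = W` for `SL_n`.** -/
def PW : Prop :=
  ∀ (C : Type) [TopologicalSpace C] [T2Space C] [CompactSpace C] [ConnectedSpace C]
    [ChartedSpace ℂ C] [IsManifold 𝓘(ℂ) ω C] (p : C) (x₀ : Pc p),
    (∃ g, Nonempty (Marking g p x₀)) ∧
    ∀ (g n : ℕ) (D : C →₀ ℤ) (M : Marking g p x₀), 2 ≤ g → 2 ≤ n → IsCoprime (n : ℤ) (deg D) →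
      (∃ ℓ, IsTriv D p ℓ) ∧ Nonempty (CptB g n (deg D)) ∧
      ∀ ℓ, IsTriv D p ℓ → IsBij M ℓ n D ∧ ∃ h : XT g n (deg D) ⟶ BT C n,
        IsHit M ℓ h ∧ PEqW (ZB C n) (dimR g n) h CptB.j

end Vale.Agent.P275SF
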